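import Mathlib
import Vale.Agent.H40.P158.Defs

/-!
# P158 (ends of bigeodesics): internal definitions

`SegGeo w v k m`: the variational geodesic inequality for the pieces of `v` inside the index
window `[k, k + m]`.  `IsTestL a b m v k H L`: a local test that only uses the window
`[k, k + m]` of `v`.
-/

namespace Vale.Agent.H40.P158

/-- Every piece of `v` between two indices of the window `[k, k + m]` weighs no more than any
finite nearest-neighbour chain between its ends. -/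
def SegGeo (w : Sym2 (ℤ × ℤ) → ℝ) (v : ℤ → ℤ × ℤ) (k : ℤ) (m : ℕ) : Prop :=
  ∀ i j : ℤ, k ≤ i → i < j → j ≤ k + m → ∀ (n : ℕ) (π : ℕ → ℤ × ℤ), π 0 = v i → π n = v j →
    (∀ l : ℕ, l < n → Adj (π l) (π (l + 1))) →
    ∑ t ∈ Finset.Ico i j, w s(v t, v (t + 1)) ≤ ∑ l ∈ Finset.range n, w s(π l, π (l + 1))

/-- A local test at the index `k` of the path `v` which only uses the window `[k, k + m]`. -/
def IsTestL (a b : ℝ) (m : ℕ) (v : ℤ → ℤ × ℤ) (k : ℤ) (H L : Finset (Sym2 (ℤ × ℤ))) : Prop :=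
  Disjoint H L ∧ H.card ≤ m ∧ L.card ≤ m + 2 ∧ (∀ e ∈ H ∪ L, Near (v k) (m + 1) e) ∧
    ∀ w : Sym2 (ℤ × ℤ) → ℝ, SegGeo w v k m → ¬ ((∀ e ∈ H, b ≤ w e) ∧ (∀ e ∈ L, w e ≤ a))

end Vale.Agent.H40.P158
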