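import Mathlib
import Vale.Agent.H40.P158.Walk
import Vale.Agent.H40.P158.Ends.DefsL

/-!
# P158 (ends of bigeodesics): the corner test, window-local form

`perp_of_neL` and `corner_testL` are `perp_of_ne` and `corner_test` (Walk.lean, Corner.lean) with
the global hypotheses replaced by what the proofs use: `v (j + 2) ≠ v j` instead of injectivity,
and the geodesic inequality inside the window (`SegGeo`) instead of `IsGeoR`.  The proofs are the
ones of those files (helper63, helper57), edited in these two places.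
-/

namespace Vale.Agent.H40.P158

theorem perp_of_neL (v : ℤ → ℤ × ℤ)
    (hadj : ∀ i : ℤ, Adj (v i) (v (i + 1))) (j : ℤ) (hne : v (j + 2) ≠ v j)
    (hj : v (j + 1) - v j ≠ v (j + 2) - v (j + 1)) :
    (|(v (j + 1) - v j).1| = 1 ∧ (v (j + 1) - v j).2 = 0 ∧
        (v (j + 2) - v (j + 1)).1 = 0 ∧ |(v (j + 2) - v (j + 1)).2| = 1) ∨
      ((v (j + 1) - v j).1 = 0 ∧ |(v (j + 1) - v j).2| = 1 ∧
        |(v (j + 2) - v (j + 1)).1| = 1 ∧ (v (j + 2) - v (j + 1)).2 = 0) := by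
  have h1 := adj_unit (hadj j)
  have h2 := adj_unit (hadj (j + 1))
  have e : j + 1 + 1 = j + 2 := by ring
  rw [e] at h2
  have hsum : (v (j + 1) - v j) + (v (j + 2) - v (j + 1)) ≠ 0 := by
    intro h
    apply hne
    have h0 : v (j + 2) - v j = 0 := by rw [← h]; abel
    exact sub_eq_zero.mp h0
  generalize v (j + 1) - v j = d at *
  generalize v (j + 2) - v (j + 1) = d' at *
  rcases h1 with rfl | rfl | rfl | rfl <;> rcases h2 with rfl | rfl | rfl | rfl <;>
    simp at hj hsum ⊢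


theorem corner_testL (a b : ℝ) (hab : a < b) (m : ℕ) (v : ℤ → ℤ × ℤ)
    (hadj : ∀ i : ℤ, Adj (v i) (v (i + 1))) (k j : ℤ)
    (hkj : k ≤ j) (hjm : j + 2 ≤ k + m) (hne : v (j + 2) ≠ v j)
    (hj : v (j + 1) - v j ≠ v (j + 2) - v (j + 1)) :
    ∃ H L : Finset (Sym2 (ℤ × ℤ)), IsTestL a b m v k H L := by
  have hperp := perp_of_neL v hadj j hne hj
  have hn0 := walk_near v hadj k (j - k).toNat
  have hn1 := walk_near v hadj k ((j - k).toNat + 1)
  have hn2 := walk_near v hadj k ((j - k).toNat + 2)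
  have hi0 : (((j - k).toNat : ℕ) : ℤ) = j - k := Int.toNat_of_nonneg (by omega)
  have e0 : k + (((j - k).toNat : ℕ) : ℤ) = j := by omega
  have e1 : k + ((((j - k).toNat + 1 : ℕ)) : ℤ) = j + 1 := by push_cast; omega
  have e2 : k + ((((j - k).toNat + 2 : ℕ)) : ℤ) = j + 2 := by push_cast; omega
  rw [e0] at hn0
  rw [e1] at hn1
  rw [e2] at hn2
  have h2 : j + 1 + 1 = j + 2 := by ring
  have hadj0 := hadj j
  have hadj1 := hadj (j + 1)
  rw [h2] at hadj1
  rcases hp : v j with ⟨p1, p2⟩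
  rcases hq : v (j + 1) with ⟨q1, q2⟩
  rcases hr : v (j + 2) with ⟨r1, r2⟩
  rcases hc : v k with ⟨c1, c2⟩
  rw [hp, hq, hr] at hperp
  rw [hp, hq, hr] at hj
  rw [hp, hc] at hn0
  rw [hq, hc] at hn1
  rw [hr, hc] at hn2
  rw [hp, hq] at hadj0
  rw [hq, hr] at hadj1
  unfold Adj at hadj0 hadj1
  simp only [Prod.mk_sub_mk, ne_eq, Prod.mk.injEq] at hperp hj
  simp only [Nat.cast_add, Nat.cast_one, Nat.cast_ofNat] at hn1 hn2
  -- linear forms
  have hperp' : ((q1 - p1 = 1 ∨ q1 - p1 = -1) ∧ q2 - p2 = 0 ∧ r1 - q1 = 0 ∧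
        (r2 - q2 = 1 ∨ r2 - q2 = -1)) ∨
      (q1 - p1 = 0 ∧ (q2 - p2 = 1 ∨ q2 - p2 = -1) ∧ (r1 - q1 = 1 ∨ r1 - q1 = -1) ∧
        r2 - q2 = 0) := by
    rcases hperp with ⟨h1, h2', h3, h4⟩ | ⟨h1, h2', h3, h4⟩
    · exact Or.inl ⟨(abs_eq (by norm_num)).mp h1, h2', h3, (abs_eq (by norm_num)).mp h4⟩
    · exact Or.inr ⟨h1, (abs_eq (by norm_num)).mp h2', (abs_eq (by norm_num)).mp h3, h4⟩
  obtain ⟨hn0a, hn0b⟩ := hn0
  obtain ⟨hn1a, hn1b⟩ := hn1
  obtain ⟨hn2a, hn2b⟩ := hn2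
  rw [abs_le] at hn0a hn0b hn1a hn1b hn2a hn2b
  have hd : |q1 - p1| + |q2 - p2| = 1 := by
    rw [abs_sub_comm q1 p1, abs_sub_comm q2 p2]
    exact hadj0
  have hd' : |r1 - q1| + |r2 - q2| = 1 := by
    rw [abs_sub_comm r1 q1, abs_sub_comm r2 q2]
    exact hadj1
  have hPS : Adj ((p1, p2) : ℤ × ℤ) (p1 + (r1 - q1), p2 + (r2 - q2)) :=
    adj_add (p1, p2) (r1 - q1, r2 - q2) hd'
  have hSR : Adj ((p1 + (r1 - q1), p2 + (r2 - q2)) : ℤ × ℤ) (r1, r2) := by
    have h := adj_add (p1 + (r1 - q1), p2 + (r2 - q2)) (q1 - p1, q2 - p2) hd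
    have e : ((p1 + (r1 - q1), p2 + (r2 - q2)) : ℤ × ℤ) + (q1 - p1, q2 - p2) = (r1, r2) := by
      rw [Prod.mk_add_mk, Prod.mk.injEq]
      constructor <;> ring
    rw [e] at h
    exact h
  have hm2 : 2 ≤ m := by omega
  refine ⟨{s((p1, p2), (q1, q2)), s((q1, q2), (r1, r2))},
    {s((p1, p2), (p1 + (r1 - q1), p2 + (r2 - q2))),
      s((p1 + (r1 - q1), p2 + (r2 - q2)), (r1, r2))}, ?_, ?_, ?_, ?_, ?_⟩
  · rw [Finset.disjoint_left]
    intro e heH heL
    simp only [Finset.mem_insert, Finset.mem_singleton] at heH heL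
    rcases heH with rfl | rfl <;> rcases heL with h | h <;>
      (simp only [Sym2.eq_iff, Prod.mk.injEq] at h; omega)
  · exact Finset.card_le_two.trans hm2
  · exact Finset.card_le_two.trans (by omega)
  · intro e he
    rw [hc]
    unfold Near
    intro z hz
    simp only [Finset.mem_union, Finset.mem_insert, Finset.mem_singleton] at he
    rcases he with (rfl | rfl) | (rfl | rfl) <;>
      (rw [Sym2.mem_iff] at hz
       rcases hz with rfl | rfl <;>
         exact ⟨abs_le.mpr ⟨by omega, by omega⟩, abs_le.mpr ⟨by omega, by omega⟩⟩)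
  · intro w hgeo hcon
    obtain ⟨hH, hL⟩ := hcon
    obtain ⟨π, π0, π1, π2⟩ : ∃ π : ℕ → ℤ × ℤ, π 0 = (p1, p2) ∧
        π 1 = (p1 + (r1 - q1), p2 + (r2 - q2)) ∧ π 2 = (r1, r2) :=
      ⟨fun l => if l = 0 then (p1, p2) else if l = 1 then (p1 + (r1 - q1), p2 + (r2 - q2))
        else (r1, r2), by simp, by simp, by simp⟩
    have h := hgeo j (j + 2) hkj (by omega) hjm 2 π (by rw [π0, hp]) (by rw [π2, hr]) (by
      intro l hl
      interval_cases l
      · show Adj (π 0) (π 1)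
        rw [π0, π1]
        exact hPS
      · show Adj (π 1) (π 2)
        rw [π1, π2]
        exact hSR)
    have hIco : Finset.Ico j (j + 2) = {j, j + 1} := by
      ext x
      simp only [Finset.mem_Ico, Finset.mem_insert, Finset.mem_singleton]
      omega
    have hR' : ∑ l ∈ Finset.range 2, w s(π l, π (l + 1))
        = w s((p1, p2), (p1 + (r1 - q1), p2 + (r2 - q2)))
          + w s((p1 + (r1 - q1), p2 + (r2 - q2)), (r1, r2)) := by
      rw [Finset.sum_range_succ, Finset.sum_range_one]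
      show w s(π 0, π 1) + w s(π 1, π 2) = _
      rw [π0, π1, π2]
    have hL' : ∑ k' ∈ Finset.Ico j (j + 2), w s(v k', v (k' + 1))
        = w s((p1, p2), (q1, q2)) + w s((q1, q2), (r1, r2)) := by
      rw [hIco, Finset.sum_pair (by omega), h2, hp, hq, hr]
    rw [hL', hR'] at h
    have b1 := hH (s((p1, p2), (q1, q2))) (by simp)
    have b2 := hH (s((q1, q2), (r1, r2))) (by simp)
    have a1 := hL (s((p1, p2), (p1 + (r1 - q1), p2 + (r2 - q2)))) (by simp)
    have a2 := hL (s((p1 + (r1 - q1), p2 + (r2 - q2)), (r1, r2))) (by simp)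
    linarith

end Vale.Agent.H40.P158
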