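import Mathlib
import Vale.Agent.H40.P158.Walk
import Vale.Agent.H40.P158.Ends.DefsL

/-!
# P158 (ends of bigeodesics): the straight test, window-local form

`straight_testL` is `straight_test` (Straight.lean) with the geodesic inequality inside the window
(`SegGeo`) instead of `IsGeoR`; injectivity is not used.  The proof is the one of that file
(helper71), edited in this one place.
-/

namespace Vale.Agent.H40.P158

theorem strL_abs (t c d M : ℤ) (ht0 : 0 ≤ t) (htM : t ≤ M) (hc : |c| ≤ 1) (hd : |d| ≤ 1) :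
    |d + t * c| ≤ M + 1 := by
  have h1 : |t * c| ≤ M := by
    rw [abs_mul, abs_of_nonneg ht0]
    nlinarith [abs_nonneg c]
  calc |d + t * c| ≤ |d| + |t * c| := abs_add_le _ _
    _ ≤ M + 1 := by linarith

theorem strL_adj (p q : ℤ × ℤ) (c d : ℤ) (hcd : |c| + |d| = 1) (h1 : q.1 = p.1 + c)
    (h2 : q.2 = p.2 + d) : Adj p q := by
  unfold Adj
  have e1 : p.1 - q.1 = -c := by rw [h1]; ring
  have e2 : p.2 - q.2 = -d := by rw [h2]; ring
  rw [e1, e2, abs_neg, abs_neg]
  exact hcd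

theorem straight_testL (a b : ℝ) (m : ℕ) (hm1 : 1 ≤ m) (hm : ((m : ℝ) + 2) * a < m * b)
    (v : ℤ → ℤ × ℤ) (hadj : ∀ i : ℤ, Adj (v i) (v (i + 1)))
    (k : ℤ) (hst : ∀ i : ℕ, i < m → v (k + i + 1) - v (k + i) = v (k + 1) - v k) :
    ∃ H L : Finset (Sym2 (ℤ × ℤ)), IsTestL a b m v k H L := by
  obtain ⟨x, hxk⟩ : ∃ x, x = v k := ⟨_, rfl⟩
  obtain ⟨u, hu⟩ : ∃ u, u = v (k + 1) - v k := ⟨_, rfl⟩
  have hc : (u.1 = 1 ∧ u.2 = 0) ∨ (u.1 = -1 ∧ u.2 = 0) ∨ (u.1 = 0 ∧ u.2 = 1)
      ∨ (u.1 = 0 ∧ u.2 = -1) := by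
    rcases adj_unit (hadj k) with h | h | h | h <;> rw [← hu] at h <;> simp [h]
  have habs : |u.1| + |u.2| = 1 := by
    rcases hc with ⟨h1, h2⟩ | ⟨h1, h2⟩ | ⟨h1, h2⟩ | ⟨h1, h2⟩ <;> simp [h1, h2]
  have hnorm : u.1 * u.1 + u.2 * u.2 = 1 := by
    rcases hc with ⟨h1, h2⟩ | ⟨h1, h2⟩ | ⟨h1, h2⟩ | ⟨h1, h2⟩ <;> simp [h1, h2]
  have hu1 : |u.1| ≤ 1 := by have := abs_nonneg u.2; linarith
  have hu2 : |u.2| ≤ 1 := by have := abs_nonneg u.1; linarith
  have hx : ∀ i : ℕ, i ≤ m → v (k + i) = (x.1 + i * u.1, x.2 + i * u.2) := by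
    intro i
    induction i with
    | zero => intro _; simp [hxk]
    | succ i ih =>
      intro hi
      have h1 := hst i (by omega)
      rw [← hu] at h1
      have h3 : k + ((i + 1 : ℕ) : ℤ) = k + i + 1 := by push_cast; ring
      have h4 : v (k + i + 1) = v (k + i) + u := by rw [← h1]; abel
      rw [h3, h4, ih (by omega)]
      ext
      · simp only [Prod.fst_add]; push_cast; ring
      · simp only [Prod.snd_add]; push_cast; ring
  obtain ⟨π, hπ⟩ : ∃ π : ℕ → ℤ × ℤ, ∀ l : ℕ, π l = if l = 0 then x else if l ≤ m + 1 then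
      (x.1 - u.2 + ((l : ℤ) - 1) * u.1, x.2 + u.1 + ((l : ℤ) - 1) * u.2) else
      (x.1 + m * u.1, x.2 + m * u.2) := ⟨fun l => _, fun l => rfl⟩
  have hπ0 : π 0 = x := by rw [hπ]; simp
  have hπ1 : ∀ l : ℕ, 1 ≤ l → l ≤ m + 1 →
      π l = (x.1 - u.2 + ((l : ℤ) - 1) * u.1, x.2 + u.1 + ((l : ℤ) - 1) * u.2) := by
    intro l h1 h2
    rw [hπ, if_neg (by omega), if_pos h2]
  have hπ2 : ∀ l : ℕ, l = m + 2 → π l = (x.1 + m * u.1, x.2 + m * u.2) := by
    intro l h1
    rw [hπ, if_neg (by omega), if_neg (by omega)]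
  have hπadj : ∀ l : ℕ, l < m + 2 → Adj (π l) (π (l + 1)) := by
    intro l hl
    rcases Nat.eq_zero_or_pos l with rfl | hl0
    · refine strL_adj _ _ (-u.2) u.1 (by rw [abs_neg, add_comm]; exact habs) ?_ ?_
      · rw [hπ0, hπ1 (0 + 1) (by omega) (by omega)]; push_cast; ring
      · rw [hπ0, hπ1 (0 + 1) (by omega) (by omega)]; push_cast; ring
    · by_cases hlm : l ≤ m
      · refine strL_adj _ _ u.1 u.2 habs ?_ ?_
        · rw [hπ1 l hl0 (by omega), hπ1 (l + 1) (by omega) (by omega)]; push_cast; ring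
        · rw [hπ1 l hl0 (by omega), hπ1 (l + 1) (by omega) (by omega)]; push_cast; ring
      · refine strL_adj _ _ u.2 (-u.1) (by rw [abs_neg, add_comm]; exact habs) ?_ ?_
        · rw [hπ1 l hl0 (by omega), hπ2 (l + 1) (by omega)]
          have hl' : (l : ℤ) = m + 1 := by omega
          dsimp only
          rw [hl']; ring
        · rw [hπ1 l hl0 (by omega), hπ2 (l + 1) (by omega)]
          have hl' : (l : ℤ) = m + 1 := by omega
          dsimp only
          rw [hl']; ring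
  have hπnear : ∀ j : ℕ, j ≤ m + 2 →
      |(π j).1 - x.1| ≤ (m : ℤ) + 1 ∧ |(π j).2 - x.2| ≤ (m : ℤ) + 1 := by
    intro j hj
    rcases Nat.eq_zero_or_pos j with rfl | hj0
    · rw [hπ0]
      have h0 : (0 : ℤ) ≤ (m : ℤ) + 1 := by positivity
      simp [h0]
    · by_cases hjm : j ≤ m + 1
      · rw [hπ1 j hj0 hjm]
        dsimp only
        have e1 : x.1 - u.2 + ((j : ℤ) - 1) * u.1 - x.1 = -u.2 + ((j : ℤ) - 1) * u.1 := by ring
        have e2 : x.2 + u.1 + ((j : ℤ) - 1) * u.2 - x.2 = u.1 + ((j : ℤ) - 1) * u.2 := by ring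
        rw [e1, e2]
        have hj1 : (0 : ℤ) ≤ (j : ℤ) - 1 := by omega
        have hj2 : (j : ℤ) - 1 ≤ m := by omega
        exact ⟨strL_abs _ _ _ _ hj1 hj2 hu1 (by rw [abs_neg]; exact hu2),
          strL_abs _ _ _ _ hj1 hj2 hu2 hu1⟩
      · rw [hπ2 j (by omega)]
        dsimp only
        have e1 : x.1 + (m : ℤ) * u.1 - x.1 = 0 + (m : ℤ) * u.1 := by ring
        have e2 : x.2 + (m : ℤ) * u.2 - x.2 = 0 + (m : ℤ) * u.2 := by ring
        rw [e1, e2]
        exact ⟨strL_abs _ _ _ _ (by positivity) le_rfl hu1 (by simp),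
          strL_abs _ _ _ _ (by positivity) le_rfl hu2 (by simp)⟩
  refine ⟨(Finset.range m).image (fun i : ℕ => s(v (k + i), v (k + i + 1))),
    (Finset.range (m + 2)).image (fun l : ℕ => s(π l, π (l + 1))), ?_⟩
  unfold IsTestL
  refine ⟨?_, ?_, ?_, ?_, ?_⟩
  · rw [Finset.disjoint_left]
    intro e heH heL
    obtain ⟨i, hi, rfl⟩ := Finset.mem_image.1 heH
    obtain ⟨l, hl, hl'⟩ := Finset.mem_image.1 heL
    rw [Finset.mem_range] at hi hl
    have hf0 : ∀ z ∈ s(v (k + i), v (k + i + 1)),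
        (z.1 - x.1) * (-u.2) + (z.2 - x.2) * u.1 = 0 := by
      intro z hz
      rcases Sym2.mem_iff.1 hz with rfl | rfl
      · rw [hx i (by omega)]
        dsimp only
        ring
      · have h3 : k + (i : ℤ) + 1 = k + ((i + 1 : ℕ) : ℤ) := by push_cast; ring
        rw [h3, hx (i + 1) (by omega)]
        dsimp only
        ring
    have hbad : ∃ z ∈ s(π l, π (l + 1)), (z.1 - x.1) * (-u.2) + (z.2 - x.2) * u.1 = 1 := by
      rcases Nat.eq_zero_or_pos l with rfl | hl0
      · refine ⟨π (0 + 1), Sym2.mem_mk_right _ _, ?_⟩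
        rw [hπ1 (0 + 1) (by omega) (by omega)]
        dsimp only
        linear_combination hnorm
      · refine ⟨π l, Sym2.mem_mk_left _ _, ?_⟩
        rw [hπ1 l hl0 (by omega)]
        dsimp only
        linear_combination hnorm
    obtain ⟨z, hz, hz1⟩ := hbad
    rw [hl'] at hz
    have h0 := hf0 z hz
    omega
  · exact Finset.card_image_le.trans (by simp)
  · exact Finset.card_image_le.trans (by simp)
  · intro e he
    unfold Near
    intro z hz
    rw [← hxk]
    rcases Finset.mem_union.1 he with heH | heL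
    · obtain ⟨i, hi, rfl⟩ := Finset.mem_image.1 heH
      rw [Finset.mem_range] at hi
      rcases Sym2.mem_iff.1 hz with rfl | rfl
      · have h1 := walk_near v hadj k i
        rw [← hxk] at h1
        have hi' : (i : ℤ) ≤ m := by omega
        exact ⟨by linarith [h1.1], by linarith [h1.2]⟩
      · have h1 := walk_near v hadj k (i + 1)
        have h3 : k + ((i + 1 : ℕ) : ℤ) = k + (i : ℤ) + 1 := by push_cast; ring
        rw [h3, ← hxk] at h1
        have hi' : ((i + 1 : ℕ) : ℤ) ≤ (m : ℤ) + 1 := by push_cast; omega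
        exact ⟨by linarith [h1.1], by linarith [h1.2]⟩
    · obtain ⟨l, hl, rfl⟩ := Finset.mem_image.1 heL
      rw [Finset.mem_range] at hl
      rcases Sym2.mem_iff.1 hz with rfl | rfl
      · exact hπnear l (by omega)
      · exact hπnear (l + 1) (by omega)
  · intro w hgeo hcon
    obtain ⟨hHb, hLa⟩ := hcon
    have hk : k < k + (m : ℤ) := by
      have : (1 : ℤ) ≤ (m : ℤ) := by exact_mod_cast hm1
      linarith
    have hend : π (m + 2) = v (k + (m : ℤ)) := by
      rw [hπ2 (m + 2) rfl, hx m le_rfl]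
    have hstart : π 0 = v k := by rw [hπ0, hxk]
    have h := hgeo k (k + (m : ℤ)) le_rfl hk le_rfl (m + 2) π hstart hend hπadj
    have hcard : (Finset.Ico k (k + (m : ℤ))).card = m := by
      rw [Int.card_Ico]
      simp
    have hlow : (m : ℝ) * b ≤ ∑ j ∈ Finset.Ico k (k + (m : ℤ)), w s(v j, v (j + 1)) := by
      calc (m : ℝ) * b = ∑ _j ∈ Finset.Ico k (k + (m : ℤ)), b := by
            rw [Finset.sum_const, hcard, nsmul_eq_mul]
        _ ≤ ∑ j ∈ Finset.Ico k (k + (m : ℤ)), w s(v j, v (j + 1)) := by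
            refine Finset.sum_le_sum (fun j hj => hHb _ ?_)
            rw [Finset.mem_Ico] at hj
            refine Finset.mem_image.2 ⟨(j - k).toNat, ?_, ?_⟩
            · rw [Finset.mem_range]; omega
            · have hj' : k + ((j - k).toNat : ℤ) = j := by omega
              rw [hj']
    have hup : ∑ l ∈ Finset.range (m + 2), w s(π l, π (l + 1)) ≤ ((m : ℝ) + 2) * a := by
      calc ∑ l ∈ Finset.range (m + 2), w s(π l, π (l + 1))
          ≤ ∑ _l ∈ Finset.range (m + 2), a :=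
            Finset.sum_le_sum (fun l hl => hLa _ (Finset.mem_image_of_mem _ hl))
        _ = ((m : ℝ) + 2) * a := by
            rw [Finset.sum_const, Finset.card_range, nsmul_eq_mul]
            push_cast
            ring
    linarith

end Vale.Agent.H40.P158
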