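import Mathlib
import Vale.Agent.H40.P158.Ends.CornerL
import Vale.Agent.H40.P158.Ends.StraightL

/-!
# P158 (ends of bigeodesics): every window of `m` steps carries a window-local test

`windowL` is `window` (Window.lean) with injectivity only on the window `[k, k + m]` and with the
window-local tests.  The proof is the one of that file (helper47), edited accordingly.
-/

namespace Vale.Agent.H40.P158

theorem windowL (a b : ℝ) (hab : a < b) (m : ℕ) (hm2 : 2 ≤ m) (hm : ((m : ℝ) + 2) * a < m * b)
    (v : ℤ → ℤ × ℤ) (hadj : ∀ i : ℤ, Adj (v i) (v (i + 1))) (k : ℤ)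
    (hinjL : ∀ i j : ℤ, k ≤ i → i ≤ k + m → k ≤ j → j ≤ k + m → v i = v j → i = j) :
    ∃ H L : Finset (Sym2 (ℤ × ℤ)), IsTestL a b m v k H L := by
  by_cases hst : ∀ i : ℕ, i < m → v (k + i + 1) - v (k + i) = v (k + 1) - v k
  · exact straight_testL a b m (by omega) hm v hadj k hst
  · have hex : ∃ i : ℕ, i < m ∧ v (k + i + 1) - v (k + i) ≠ v (k + 1) - v k := by
      by_contra hno
      apply hst
      intro i him
      by_contra hne
      exact hno ⟨i, him, hne⟩
    classical
    obtain ⟨him, hine⟩ := Nat.find_spec hex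
    have hmin : ∀ l : ℕ, l < Nat.find hex →
        ¬ (l < m ∧ v (k + l + 1) - v (k + l) ≠ v (k + 1) - v k) :=
      fun l hl => Nat.find_min hex hl
    generalize Nat.find hex = i at him hine hmin
    have hi0 : i ≠ 0 := by
      intro h0
      apply hine
      rw [h0]
      simp
    have hprev : v (k + ((i - 1 : ℕ) : ℤ) + 1) - v (k + ((i - 1 : ℕ) : ℤ)) = v (k + 1) - v k := by
      have h1 := hmin (i - 1) (by omega)
      by_contra hne
      exact h1 ⟨by omega, hne⟩
    have hj2 : k + ((i - 1 : ℕ) : ℤ) + 2 = k + (i : ℤ) + 1 := by omega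
    have hj1 : k + ((i - 1 : ℕ) : ℤ) + 1 = k + (i : ℤ) := by omega
    have hne2 : v (k + ((i - 1 : ℕ) : ℤ) + 2) ≠ v (k + ((i - 1 : ℕ) : ℤ)) := by
      intro h
      have := hinjL _ _ (by omega) (by omega) (by omega) (by omega) h
      omega
    refine corner_testL a b hab m v hadj k (k + ((i - 1 : ℕ) : ℤ)) (by omega) (by omega) hne2 ?_
    rw [hprev, hj2, hj1]
    exact fun h => hine h.symm

end Vale.Agent.H40.P158
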