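import Mathlib
import Vale.Agent.H40.P158.Core
import Vale.Agent.H40.P158.Ends.WindowL

/-!
# P158 (ends of bigeodesics): the abstract core for one fixed ray

`coreL`: let `G` be a probability law on a measurable space `X` and `val : X → ℝ` measurable with
`0 < G {val ≤ a}`, `0 < G {b ≤ val}`, `a < b`.  Let `ρ : ℤ → ℤ × ℤ` be a nearest-neighbour
sequence which is injective on the indices `≥ 0`.  Then the set of configurations
`w : Sym2 (ℤ × ℤ) → X` for which every window `[k, k + m]`, `k ≥ 0`, of `ρ` satisfies the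
variational geodesic inequality (`SegGeo`) for the real weights `val ∘ w` is a null set of the
product law.  The proof is the one of `core` (Core.lean), with the window-local tests of
`windowL` at the indices `≥ 0`.
-/

open MeasureTheory Set Filter

namespace Vale.Agent.H40.P158

theorem coreL {X : Type} [MeasurableSpace X] (G : Measure X) [IsProbabilityMeasure G]
    (val : X → ℝ) (hval : Measurable val) (a b : ℝ) (hab : a < b)
    (ha : 0 < G {x | val x ≤ a}) (hb : 0 < G {x | b ≤ val x}) (ρ : ℤ → ℤ × ℤ)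
    (hadj : ∀ i : ℤ, Adj (ρ i) (ρ (i + 1)))
    (hinj : ∀ i j : ℤ, 0 ≤ i → 0 ≤ j → ρ i = ρ j → i = j) :
    Measure.infinitePi (fun _ : Sym2 (ℤ × ℤ) => G)
      {w | ∀ (k : ℤ) (m : ℕ), 0 ≤ k → SegGeo (fun e => val (w e)) ρ k m} = 0 := by
  -- the window length
  obtain ⟨m0, hm0⟩ := exists_nat_gt (2 * a / (b - a))
  have hba : 0 < b - a := sub_pos.mpr hab
  have hm0' : 2 * a < m0 * (b - a) := (div_lt_iff₀ hba).mp hm0
  set m : ℕ := m0 + 2 with hmdef
  have hm2 : 2 ≤ m := by omega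
  have hm : ((m : ℝ) + 2) * a < m * b := by
    have h1 : (m : ℝ) = m0 + 2 := by rw [hmdef]; push_cast; ring
    rw [h1]
    nlinarith
  -- the tests
  choose H L hT using fun n : ℕ => windowL a b hab m hm2 hm ρ hadj (n : ℤ)
    (fun i j hi _ hj _ hij => hinj i j (le_trans (Int.natCast_nonneg n) hi)
      (le_trans (Int.natCast_nonneg n) hj) hij)
  -- far-apart indices
  have hinj' : Function.Injective (fun i : ℤ => ρ ((Equiv.intEquivNat i : ℕ) : ℤ)) := by
    intro i j hij
    have h1 := hinj _ _ (Int.natCast_nonneg _) (Int.natCast_nonneg _) hij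
    exact Equiv.intEquivNat.injective (by exact_mod_cast h1)
  obtain ⟨κ0, hκ0⟩ := select _ hinj' (2 * ((m : ℤ) + 1))
  set κ : ℕ → ℕ := fun n => Equiv.intEquivNat (κ0 n) with hκdef
  have hκ : ∀ n n' : ℕ, n ≠ n' →
      2 * ((m : ℤ) + 1) < |(ρ (κ n : ℤ)).1 - (ρ (κ n' : ℤ)).1| ∨
      2 * ((m : ℤ) + 1) < |(ρ (κ n : ℤ)).2 - (ρ (κ n' : ℤ)).2| := fun n n' hnn => hκ0 n n' hnn
  set F : ℕ → Finset (Sym2 (ℤ × ℤ)) := fun n => H (κ n) ∪ L (κ n) with hFdef
  have hF : ∀ n n' : ℕ, n ≠ n' → Disjoint (F n) (F n') := by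
    intro n n' hnn
    rw [Finset.disjoint_left]
    intro e he he'
    have h1 := (hT (κ n)).2.2.2.1 e he
    have h2 := (hT (κ n')).2.2.2.1 e he'
    have h3 := fin_far _ _ _ e h1 h2
    rcases hκ n n' hnn with h4 | h4
    · exact absurd h3.1 (not_le.mpr h4)
    · exact absurd h3.2 (not_le.mpr h4)
  classical
  set B : ℕ → Sym2 (ℤ × ℤ) → Set X :=
    fun n e => if e ∈ H (κ n) then {x | b ≤ val x} else {x | val x ≤ a} with hBdef
  have hB : ∀ n e, MeasurableSet (B n e) := by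
    intro n e
    simp only [hBdef]
    split_ifs
    · exact measurableSet_le measurable_const hval
    · exact measurableSet_le hval measurable_const
  have hbox : ∀ n : ℕ, {w : Sym2 (ℤ × ℤ) → X | ∀ e ∈ F n, w e ∈ B n e} =
      {w | (∀ e ∈ H (κ n), w e ∈ {x | b ≤ val x}) ∧ (∀ e ∈ L (κ n), w e ∈ {x | val x ≤ a})} := by
    intro n
    ext w
    simp only [mem_ofPred_eq, hFdef, hBdef, Finset.mem_union]
    constructor
    · intro h
      refine ⟨fun e he => ?_, fun e he => ?_⟩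
      · have := h e (Or.inl he)
        rw [if_pos he] at this
        exact this
      · have hne : e ∉ H (κ n) := fun he' => Finset.disjoint_left.mp (hT (κ n)).1 he' he
        have := h e (Or.inr he)
        rw [if_neg hne] at this
        exact this
    · rintro ⟨h1, h2⟩ e he
      by_cases heH : e ∈ H (κ n)
      · rw [if_pos heH]; exact h1 e heH
      · rw [if_neg heH]
        rcases he with he | he
        · exact absurd he heH
        · exact h2 e he
  set μ := Measure.infinitePi (fun _ : Sym2 (ℤ × ℤ) => G) with hμ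
  set δ : ENNReal := G {x | b ≤ val x} ^ m * G {x | val x ≤ a} ^ (m + 2) with hδ
  have hδpos : δ ≠ 0 := by
    rw [hδ]
    exact mul_ne_zero (pow_ne_zero _ hb.ne') (pow_ne_zero _ ha.ne')
  have hδbox : ∀ n : ℕ, δ ≤ μ {w | ∀ e ∈ F n, w e ∈ B n e} := by
    intro n
    rw [hbox n]
    exact box_prob G {x | b ≤ val x} {x | val x ≤ a} (measurableSet_le measurable_const hval)
      (measurableSet_le hval measurable_const) m (H (κ n)) (L (κ n)) (hT (κ n)).1 (hT (κ n)).2.1
      (hT (κ n)).2.2.1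
  have hsub : ∀ N : ℕ,
      {w : Sym2 (ℤ × ℤ) → X | ∀ (k : ℤ) (m : ℕ), 0 ≤ k → SegGeo (fun e => val (w e)) ρ k m} ⊆
      {w | ∀ n < N, ¬ ∀ e ∈ F n, w e ∈ B n e} := by
    intro N w hw n _ hall
    have hw' : w ∈ {w : Sym2 (ℤ × ℤ) → X | ∀ e ∈ F n, w e ∈ B n e} := hall
    rw [hbox n] at hw'
    exact (hT (κ n)).2.2.2.2 (fun e => val (w e)) (hw (κ n : ℤ) m (Int.natCast_nonneg _)) hw'
  have hle : ∀ N : ℕ,
      μ {w | ∀ (k : ℤ) (m : ℕ), 0 ≤ k → SegGeo (fun e => val (w e)) ρ k m} ≤ (1 - δ) ^ N := by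
    intro N
    calc μ {w | ∀ (k : ℤ) (m : ℕ), 0 ≤ k → SegGeo (fun e => val (w e)) ρ k m}
        ≤ μ {w | ∀ n < N, ¬ ∀ e ∈ F n, w e ∈ B n e} := measure_mono (hsub N)
      _ = ∏ n ∈ Finset.range N, (1 - μ {w | ∀ e ∈ F n, w e ∈ B n e}) :=
          no_box_prob G F hF B hB N
      _ ≤ ∏ _n ∈ Finset.range N, (1 - δ) :=
          Finset.prod_le_prod' fun n _ => tsub_le_tsub_left (hδbox n) 1
      _ = (1 - δ) ^ N := by rw [Finset.prod_const, Finset.card_range]
  have hlt : (1 : ENNReal) - δ < 1 := ENNReal.sub_lt_self ENNReal.one_ne_top one_ne_zero hδpos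
  have hlim : Tendsto (fun N : ℕ => ((1 : ENNReal) - δ) ^ N) atTop (nhds 0) :=
    ENNReal.tendsto_pow_atTop_nhds_zero_of_lt_one hlt
  exact le_antisymm (ge_of_tendsto' hlim hle) bot_le

end Vale.Agent.H40.P158
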