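import Mathlib
import Vale.Agent.H40.P158.Defs

/-!
# P158 (ends of bigeodesics): reversing a bigeodesic

`geo_reverse`: if `v` is a bigeodesic for the real weights `w` (internal variational form
`IsGeoR`), then so is the reversed sequence `i ↦ v (-i)`.
-/

namespace Vale.Agent.H40.P158

/-- Adjacency is symmetric. -/
theorem rev_adj_symm {x y : ℤ × ℤ} (h : Adj x y) : Adj y x := by
  unfold Adj at h ⊢
  rw [abs_sub_comm y.1 x.1, abs_sub_comm y.2 x.2]
  exact h

theorem geo_reverse (w : Sym2 (ℤ × ℤ) → ℝ) (v : ℤ → ℤ × ℤ) (h : IsGeoR w v) :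
    IsGeoR w (fun i : ℤ => v (-i)) := by
  obtain ⟨hinj, hadj, hgeo⟩ := h
  refine ⟨fun i j hij => neg_injective (hinj hij), ?_, ?_⟩
  · intro i
    have h1 := hadj (-(i + 1))
    have e : -(i + 1) + 1 = -i := by ring
    rw [e] at h1
    exact rev_adj_symm h1
  · intro i j hij n π h0 hn hπ
    have h0' : π 0 = v (-i) := h0
    have hn' : π n = v (-j) := hn
    have hmain : ∑ k ∈ Finset.Ico (-j) (-i), w s(v k, v (k + 1)) ≤
        ∑ l ∈ Finset.range n, w s(π (n - l), π (n - (l + 1))) :=
      hgeo (-j) (-i) (by linarith) n (fun l => π (n - l)) (by simpa using hn')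
        (by simpa using h0')
        (by
          intro l hl
          have h2 := hπ (n - (l + 1)) (by omega)
          have e : n - (l + 1) + 1 = n - l := by omega
          rw [e] at h2
          exact rev_adj_symm h2)
    have hL : ∑ k ∈ Finset.Ico i j, w s(v (-k), v (-(k + 1))) =
        ∑ k ∈ Finset.Ico (-j) (-i), w s(v k, v (k + 1)) := by
      refine Finset.sum_nbij' (fun t => -t - 1) (fun k => -k - 1) ?_ ?_ ?_ ?_ ?_
      · intro t ht
        rw [Finset.mem_Ico] at ht ⊢
        constructor <;> omega
      · intro k hk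
        rw [Finset.mem_Ico] at hk ⊢
        constructor <;> omega
      · intro t _
        ring
      · intro k _
        ring
      · intro t _
        show w s(v (-t), v (-(t + 1))) = w s(v (-t - 1), v (-t - 1 + 1))
        have e1 : -t - 1 + 1 = -t := by ring
        have e2 : -(t + 1) = -t - 1 := by ring
        rw [e1, e2, Sym2.eq_swap]
    have hR : ∑ l ∈ Finset.range n, w s(π (n - l), π (n - (l + 1))) =
        ∑ l ∈ Finset.range n, w s(π l, π (l + 1)) := by
      rw [← Finset.sum_range_reflect (fun l => w s(π l, π (l + 1))) n]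
      refine Finset.sum_congr rfl ?_
      intro l hl
      rw [Finset.mem_range] at hl
      show w s(π (n - l), π (n - (l + 1))) = w s(π (n - 1 - l), π (n - 1 - l + 1))
      have e1 : n - 1 - l + 1 = n - l := by omega
      have e2 : n - 1 - l = n - (l + 1) := by omega
      rw [e1, e2, Sym2.eq_swap]
    show ∑ k ∈ Finset.Ico i j, w s(v (-k), v (-(k + 1))) ≤
      ∑ l ∈ Finset.range n, w s(π l, π (l + 1))
    rw [hL, ← hR]
    exact hmain

end Vale.Agent.H40.P158
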