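import Mathlib

/-!
# P158 (ends of bigeodesics): a sequence without turns beyond an index is a straight ray

Purely deterministic lemmas about sequences `v : ℤ → ℤ × ℤ`.
-/

namespace Vale.Agent.H40.P158

/-- All forward increments from `k` on equal the first one. -/
theorem turns_fwd_incr (v : ℤ → ℤ × ℤ) (k : ℤ)
    (h : ∀ i : ℤ, k ≤ i → v (i + 1) - v i = v (i + 2) - v (i + 1)) :
    ∀ i : ℕ, v (k + i + 1) - v (k + i) = v (k + 1) - v k := by
  intro i
  induction i with
  | zero => simp
  | succ n ih =>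
    have h1 := h (k + n) (by omega)
    have e1 : k + ((n + 1 : ℕ) : ℤ) + 1 = k + n + 2 := by push_cast; ring
    have e2 : k + ((n + 1 : ℕ) : ℤ) = k + n + 1 := by push_cast; ring
    rw [e1, e2, ← h1, ih]

/-- All backward increments from `k + 2` on equal the first one. -/
theorem turns_bwd_incr (v : ℤ → ℤ × ℤ) (k : ℤ)
    (h : ∀ i : ℤ, i ≤ k → v (i + 1) - v i = v (i + 2) - v (i + 1)) :
    ∀ i : ℕ, v (k + 1 - i) - v (k + 2 - i) = v (k + 1) - v (k + 2) := by
  intro i
  induction i with
  | zero => simp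
  | succ n ih =>
    have h1 := h (k - n) (by omega)
    have e1 : k + 1 - ((n + 1 : ℕ) : ℤ) = k - n := by push_cast; ring
    have e2 : k + 2 - ((n + 1 : ℕ) : ℤ) = k - n + 1 := by push_cast; ring
    have e3 : k + 1 - (n : ℤ) = k - n + 1 := by ring
    have e4 : k + 2 - (n : ℤ) = k - n + 2 := by ring
    rw [e3, e4] at ih
    rw [e1, e2, ← ih]
    calc v (k - n) - v (k - n + 1) = -(v (k - n + 1) - v (k - n)) := (neg_sub _ _).symm
      _ = -(v (k - n + 2) - v (k - n + 1)) := by rw [h1]
      _ = v (k - n + 1) - v (k - n + 2) := neg_sub _ _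

/-- No turn at any index `i ≥ k`: the forward end from `k` is a straight ray. -/
theorem fwd_straight (v : ℤ → ℤ × ℤ) (k : ℤ)
    (h : ∀ i : ℤ, k ≤ i → v (i + 1) - v i = v (i + 2) - v (i + 1)) :
    ∀ i : ℕ, v (k + i) = v k + i • (v (k + 1) - v k) := by
  intro i
  induction i with
  | zero => simp
  | succ n ih =>
    have h1 := turns_fwd_incr v k h n
    have e2 : k + ((n + 1 : ℕ) : ℤ) = k + n + 1 := by push_cast; ring
    rw [e2, succ_nsmul, ← add_assoc, ← ih, ← h1]
    abel

/-- No turn at any index `i ≤ k`: the backward end from `k + 2` is a straight ray. -/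
theorem bwd_straight (v : ℤ → ℤ × ℤ) (k : ℤ)
    (h : ∀ i : ℤ, i ≤ k → v (i + 1) - v i = v (i + 2) - v (i + 1)) :
    ∀ i : ℕ, v (k + 2 - i) = v (k + 2) + i • (v (k + 1) - v (k + 2)) := by
  intro i
  induction i with
  | zero => simp
  | succ n ih =>
    have h1 := turns_bwd_incr v k h n
    have e2 : k + 2 - ((n + 1 : ℕ) : ℤ) = k + 1 - n := by push_cast; ring
    rw [e2, succ_nsmul, ← add_assoc, ← ih, ← h1]
    abel

end Vale.Agent.H40.P158
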