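import Mathlib
import Vale.Agent.H43.P158.Defs
import Vale.Agent.H43.P158.Law
import Vale.Agent.H40.P158.Final
import Vale.Agent.H40.P158.Ends.CoreL
import Vale.Agent.H40.P158.Ends.Reverse
import Vale.Agent.H40.P158.Ends.Turns

/-!
# P158 (ends of bigeodesics): the final statements

`seg_of_geo`: if the forward end of a bigeodesic `v` from the index `k0` follows `ρ`, then every
window of `ρ` at an index `≥ 0` satisfies the variational geodesic inequality.
`end_null`: for a fixed sequence `r : ℕ → ℤ × ℤ`, the set of configurations which have a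
bigeodesic with an end (forward or backward) following `r` is a null set.
`ends_statement`: the same for a countable family of sequences.
`turns_statement`: almost surely every bigeodesic turns at indices beyond every index, in both
directions.
-/

open MeasureTheory Set Filter
open scoped NNReal

namespace Vale.Agent.H40.P158

open Vale.Agent.H43.P158

theorem seg_of_geo (w : Sym2 (ℤ × ℤ) → ℝ) (v ρ : ℤ → ℤ × ℤ) (k0 : ℤ) (h : IsGeoR w v)
    (hρ : ∀ t : ℤ, 0 ≤ t → ρ t = v (k0 + t)) (k : ℤ) (m : ℕ) (hk : 0 ≤ k) :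
    SegGeo w ρ k m := by
  intro i j hki hij hjm n π h0 hn hπ
  have h1 := h.2.2 (k0 + i) (k0 + j) (by omega) n π (by rw [h0, hρ i (by omega)])
    (by rw [hn, hρ j (by omega)]) hπ
  have h2 : ∑ t ∈ Finset.Ico i j, w s(ρ t, ρ (t + 1)) =
      ∑ t ∈ Finset.Ico (k0 + i) (k0 + j), w s(v t, v (t + 1)) := by
    rw [add_comm k0 i, add_comm k0 j,
      ← Finset.sum_Ico_add' (fun t => w s(v t, v (t + 1))) i j k0]
    refine Finset.sum_congr rfl (fun t ht => ?_)
    rw [Finset.mem_Ico] at ht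
    have e1 : k0 + t = t + k0 := by ring
    have e2 : k0 + (t + 1) = t + k0 + 1 := by ring
    rw [hρ t (by omega), hρ (t + 1) (by omega), e1, e2]
  rw [h2]
  exact h1

theorem end_null (G : Measure ℝ≥0) [IsProbabilityMeasure G] (hG : ∀ c, G {c} < 1)
    (r : ℕ → ℤ × ℤ) :
    Measure.infinitePi (fun _ : Sym2 (ℤ × ℤ) => G)
      {ω | ∃ v, IsBigeodesic ω v ∧ ∃ k : ℤ,
        (∀ i : ℕ, v (k + i) = r i) ∨ (∀ i : ℕ, v (k - i) = r i)} = 0 := by
  obtain ⟨lo, hi, hlohi, hlo, hhi⟩ := exists_lo_hi G hG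
  by_cases hp : Function.Injective r ∧ ∀ i : ℕ, Adj (r i) (r (i + 1))
  swap
  · have hemp : {ω : Sym2 (ℤ × ℤ) → ℝ≥0 | ∃ v, IsBigeodesic ω v ∧ ∃ k : ℤ,
        (∀ i : ℕ, v (k + i) = r i) ∨ (∀ i : ℕ, v (k - i) = r i)} = ∅ := by
      ext ω
      simp only [mem_ofPred_eq, mem_empty_iff_false, iff_false]
      rintro ⟨v, hv, k, hk⟩
      apply hp
      rcases hk with hk | hk
      · refine ⟨fun i j hij => ?_, fun i => ?_⟩
        · have h1 : v (k + i) = v (k + j) := by rw [hk i, hk j, hij]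
          have h2 := hv.1 h1
          omega
        · have h1 : Adj (v (k + i)) (v (k + i + 1)) := hv.2.1 (k + i)
          have e1 : k + (i : ℤ) + 1 = k + ((i + 1 : ℕ) : ℤ) := by push_cast; ring
          rw [e1, hk i, hk (i + 1)] at h1
          exact h1
      · refine ⟨fun i j hij => ?_, fun i => ?_⟩
        · have h1 : v (k - i) = v (k - j) := by rw [hk i, hk j, hij]
          have h2 := hv.1 h1
          omega
        · have h1 : Adj (v (k - ((i + 1 : ℕ) : ℤ))) (v (k - ((i + 1 : ℕ) : ℤ) + 1)) :=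
            hv.2.1 (k - ((i + 1 : ℕ) : ℤ))
          have e1 : k - ((i + 1 : ℕ) : ℤ) + 1 = k - (i : ℤ) := by push_cast; ring
          rw [e1, hk i, hk (i + 1)] at h1
          exact adj_symm h1
    rw [hemp, measure_empty]
  obtain ⟨hinj, hadj⟩ := hp
  obtain ⟨ρ, hρdef⟩ : ∃ ρ : ℤ → ℤ × ℤ, ∀ i : ℤ, ρ i = r i.natAbs := ⟨fun i => r i.natAbs, fun _ => rfl⟩
  have hρadj : ∀ i : ℤ, Adj (ρ i) (ρ (i + 1)) := by
    intro i
    rw [hρdef, hρdef]
    rcases le_or_gt 0 i with hi0 | hi0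
    · have h1 : (i + 1).natAbs = i.natAbs + 1 := by omega
      rw [h1]
      exact hadj _
    · have h1 : i.natAbs = (i + 1).natAbs + 1 := by omega
      rw [h1]
      exact adj_symm (hadj _)
  have hρinj : ∀ i j : ℤ, 0 ≤ i → 0 ≤ j → ρ i = ρ j → i = j := by
    intro i j hi0 hj0 hij
    rw [hρdef, hρdef] at hij
    have h1 := hinj hij
    omega
  have hcore := coreL G (fun x : ℝ≥0 => (x : ℝ)) NNReal.continuous_coe.measurable (lo : ℝ) (hi : ℝ)
    (NNReal.coe_lt_coe.mpr hlohi)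
    (by
      have : {x : ℝ≥0 | (x : ℝ) ≤ (lo : ℝ)} = Iic lo := by
        ext x; simp
      rw [this]; exact hlo)
    (by
      have : {x : ℝ≥0 | (hi : ℝ) ≤ (x : ℝ)} = Ici hi := by
        ext x; simp
      rw [this]; exact hhi) ρ hρadj hρinj
  refine measure_mono_null ?_ hcore
  rintro ω ⟨v, hv, k0, hk⟩
  have hgeo := bridge ω v hv
  rcases hk with hk | hk
  · intro k m hk0
    refine seg_of_geo _ v ρ k0 hgeo (fun t ht => ?_) k m hk0
    have e1 : k0 + t = k0 + (t.natAbs : ℤ) := by omega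
    rw [hρdef, e1, hk]
  · intro k m hk0
    refine seg_of_geo _ (fun i : ℤ => v (-i)) ρ (-k0) (geo_reverse _ v hgeo) (fun t ht => ?_) k m hk0
    have e1 : -(-k0 + t) = k0 - (t.natAbs : ℤ) := by omega
    show ρ t = v (-(-k0 + t))
    rw [hρdef, e1, hk]

theorem ends_statement (G : Measure ℝ≥0) [IsProbabilityMeasure G] (hG : ∀ c, G {c} < 1)
    (Γ : Set (ℕ → ℤ × ℤ)) (hΓ : Γ.Countable) :
    ∀ᵐ ω ∂(Measure.infinitePi (fun _ : Sym2 (ℤ × ℤ) => G)), ∀ v, IsBigeodesic ω v →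
      ∀ r ∈ Γ, ∀ k : ℤ, ¬ (∀ i : ℕ, v (k + i) = r i) ∧ ¬ (∀ i : ℕ, v (k - i) = r i) := by
  rw [ae_iff]
  refine measure_mono_null (t := ⋃ r ∈ Γ, {ω | ∃ v, IsBigeodesic ω v ∧ ∃ k : ℤ,
    (∀ i : ℕ, v (k + i) = r i) ∨ (∀ i : ℕ, v (k - i) = r i)}) ?_
    ((measure_biUnion_null_iff hΓ).mpr fun r _ => end_null G hG r)
  intro ω hω
  simp only [mem_ofPred_eq] at hω
  by_contra hcon
  apply hω
  intro v hv r hr k
  refine ⟨fun h => hcon ?_, fun h => hcon ?_⟩
  · exact mem_iUnion₂.mpr ⟨r, hr, v, hv, k, Or.inl h⟩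
  · exact mem_iUnion₂.mpr ⟨r, hr, v, hv, k, Or.inr h⟩

theorem turns_statement (G : Measure ℝ≥0) [IsProbabilityMeasure G] (hG : ∀ c, G {c} < 1) :
    ∀ᵐ ω ∂(Measure.infinitePi (fun _ : Sym2 (ℤ × ℤ) => G)), ∀ v, IsBigeodesic ω v →
      ∀ k : ℤ, (∃ i : ℤ, k ≤ i ∧ v (i + 1) - v i ≠ v (i + 2) - v (i + 1)) ∧
        (∃ i : ℤ, i ≤ k ∧ v (i + 1) - v i ≠ v (i + 2) - v (i + 1)) := by
  have hΓ : (Set.range (fun p : (ℤ × ℤ) × (ℤ × ℤ) => fun i : ℕ => p.1 + i • p.2)).Countable :=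
    Set.countable_range _
  filter_upwards [ends_statement G hG _ hΓ] with ω hω v hv k
  constructor
  · by_contra hno
    have hst : ∀ i : ℤ, k ≤ i → v (i + 1) - v i = v (i + 2) - v (i + 1) := by
      intro i hi
      by_contra hne
      exact hno ⟨i, hi, hne⟩
    exact (hω v hv _ ⟨(v k, v (k + 1) - v k), rfl⟩ k).1 (fwd_straight v k hst)
  · by_contra hno
    have hst : ∀ i : ℤ, i ≤ k → v (i + 1) - v i = v (i + 2) - v (i + 1) := by
      intro i hi
      by_contra hne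
      exact hno ⟨i, hi, hne⟩
    exact (hω v hv _ ⟨(v (k + 2), v (k + 1) - v (k + 2)), rfl⟩ (k + 2)).2 (bwd_straight v k hst)

end Vale.Agent.H40.P158
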